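import Vale.Agent.P031.Defs

namespace Vale.Agent.P031

theorem V_le {x : ℝ} (hx : 0 ≤ x) : (V x : ℝ) ≤ x := by
  classical
  have h1 : V x ≤ ⌊x⌋₊ := by
    unfold V
    calc _ ≤ (Finset.Icc 1 ⌊x⌋₊).card := Finset.card_filter_le _ _
      _ = ⌊x⌋₊ := by simp
  calc (V x : ℝ) ≤ (⌊x⌋₊ : ℕ) := by exact_mod_cast h1
    _ ≤ x := Nat.floor_le hx

theorem V_mono : Monotone V := by
  classical
  intro x y hxy
  unfold V
  apply Finset.card_le_card
  apply Finset.filter_subset_filter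
  exact Finset.Icc_subset_Icc le_rfl (Nat.floor_le_floor hxy)

theorem V_pos {x : ℝ} (hx : 1 ≤ x) : 0 < V x := by
  classical
  unfold V
  apply Finset.card_pos.2
  refine ⟨1, ?_⟩
  simp only [Finset.mem_filter, Finset.mem_Icc, le_refl, true_and]
  exact ⟨Nat.le_floor (by simpa using hx), 1, one_pos, Nat.totient_one⟩

end Vale.Agent.P031
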