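import Mathlib

namespace Vale.Agent.P031

/-! PART C -/
theorem cheb : ∃ N0 : ℕ, ∀ n : ℕ, N0 ≤ n →
    (n : ℝ) / 2 ≤ Nat.primeCounting n * Real.log n := by
  refine ⟨20, fun n hn => ?_⟩
  have h1 := Chebyshev.psi_ge n
  have h2 := Chebyshev.psi_le_primeCounting_mul_log n
  have hn' : (20 : ℝ) ≤ n := by exact_mod_cast hn
  have hl2 : (0.6931 : ℝ) < Real.log 2 := by
    have := Real.log_two_gt_d9
    linarith
  have hpos : (0 : ℝ) < ((n : ℝ) + 1) / 16 := by positivity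
  have h3 : Real.log (((n : ℝ) + 1) / 16) ≤ ((n : ℝ) + 1) / 16 - 1 :=
    Real.log_le_sub_one_of_pos hpos
  have h4 : Real.log ((n : ℝ) + 1) = Real.log (((n : ℝ) + 1) / 16) + 4 * Real.log 2 := by
    have e16 : (16 : ℝ) = 2 ^ 4 := by norm_num
    have : (n : ℝ) + 1 = (((n : ℝ) + 1) / 16) * 2 ^ 4 := by
      rw [← e16]; field_simp
    conv_lhs => rw [this]
    rw [Real.log_mul hpos.ne' (by positivity), Real.log_pow]
    norm_num
  have h5 : (n : ℝ) / 2 ≤ n * Real.log 2 - Real.log ((n : ℝ) + 1) := by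
    rw [h4]
    nlinarith
  linarith

end Vale.Agent.P031
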