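import Mathlib

namespace Vale.Agent.P031

open Classical in
/-- `V x` is the number of distinct values `v ≤ x` of Euler's totient function -/
noncomputable def V (x : ℝ) : ℕ :=
  ((Finset.Icc 1 ⌊x⌋₊).filter fun v => ∃ n : ℕ, 0 < n ∧ n.totient = v).card

end Vale.Agent.P031
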