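import Mathlib

/-! P031, PART D: an exponential eventually beats a linear function. -/

namespace Vale.Agent.P031

open Filter Topology

theorem growth (r : ℝ) (hr : 1 < r) (a b : ℝ) :
    ∃ k0 : ℕ, ∀ k : ℕ, k0 ≤ k → a * k + b < r ^ k := by
  have h1 : Tendsto (fun k : ℕ => (k : ℝ) ^ 1 / r ^ k) atTop (𝓝 0) :=
    tendsto_pow_const_div_const_pow_of_one_lt 1 hr
  have h0 : Tendsto (fun k : ℕ => (k : ℝ) ^ 0 / r ^ k) atTop (𝓝 0) :=
    tendsto_pow_const_div_const_pow_of_one_lt 0 hr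
  have h2 : Tendsto (fun k : ℕ => a * ((k : ℝ) ^ 1 / r ^ k) + b * ((k : ℝ) ^ 0 / r ^ k)) atTop
      (𝓝 (a * 0 + b * 0)) := (h1.const_mul a).add (h0.const_mul b)
  have h3 : ∀ᶠ k : ℕ in atTop, a * ((k : ℝ) ^ 1 / r ^ k) + b * ((k : ℝ) ^ 0 / r ^ k) < 1 :=
    h2.eventually_lt_const (by norm_num)
  obtain ⟨k0, hk0⟩ := eventually_atTop.mp h3
  refine ⟨k0, fun k hk => ?_⟩
  have h4 := hk0 k hk
  have hp : (0 : ℝ) < r ^ k := by positivity
  have e : a * ((k : ℝ) ^ 1 / r ^ k) + b * ((k : ℝ) ^ 0 / r ^ k) = (a * k + b) / r ^ k := by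
    rw [pow_one, pow_zero]
    ring
  rw [e, div_lt_one hp] at h4
  exact h4

end Vale.Agent.P031
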