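import Vale.Agent.P031.Defs

namespace Vale.Agent.P031

theorem pi_le_V (n : ℕ) : Nat.primeCounting n ≤ V n := by
  classical
  unfold V
  rw [Nat.floor_natCast]
  rw [Nat.primeCounting, Nat.primeCounting', Nat.count_eq_card_filter_range]
  apply Finset.card_le_card_of_injOn (fun p => p - 1)
  · intro p hp
    simp only [Finset.coe_filter, Finset.mem_range, Set.mem_ofPred_eq] at hp
    simp only [Finset.coe_filter, Finset.mem_Icc, Set.mem_ofPred_eq]
    have h2 := hp.2.two_le
    exact ⟨⟨by omega, by omega⟩, p, by omega, Nat.totient_prime hp.2⟩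
  · intro p hp q hq h
    simp only [Finset.coe_filter, Finset.mem_range, Set.mem_ofPred_eq] at hp hq
    have h2 := hp.2.two_le
    have h3 := hq.2.two_le
    simp only at h
    omega

end Vale.Agent.P031
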