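import Vale.Agent.P031.Basic
import Vale.Agent.P031.Primes
import Vale.Agent.P031.Cheb
import Vale.Agent.P031.Growth

namespace Vale.Agent.P031

open Filter Topology

theorem upper (c : ℝ) (hc : 1 < c) (c' : ℝ) (hc' : c < c') (x0 : ℝ) :
    ∃ x : ℝ, x0 ≤ x ∧ (V (c * x) : ℝ) < c' * V x := by
  by_contra hcon
  have h : ∀ x, x0 ≤ x → c' * V x ≤ V (c * x) := fun x hx => by
    by_contra h1
    exact hcon ⟨x, hx, not_le.1 h1⟩
  have hx1 : 1 ≤ max x0 1 := le_max_right _ _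
  have hc0 : 0 < c := by linarith
  have hc'0 : 0 < c' := by linarith
  have hind : ∀ k : ℕ, c' ^ k ≤ V (c ^ k * max x0 1) := by
    intro k
    induction k with
    | zero =>
      have : 0 < V (max x0 1) := V_pos hx1
      simp only [pow_zero, one_mul]
      exact_mod_cast this
    | succ k ih =>
      have hxk : x0 ≤ c ^ k * max x0 1 := by
        have h1 : 1 ≤ c ^ k := one_le_pow₀ hc.le
        calc x0 ≤ max x0 1 := le_max_left _ _
          _ = 1 * max x0 1 := (one_mul _).symm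
          _ ≤ c ^ k * max x0 1 := mul_le_mul_of_nonneg_right h1 (by linarith)
      calc c' ^ (k + 1) = c' * c' ^ k := by ring
        _ ≤ c' * V (c ^ k * max x0 1) := mul_le_mul_of_nonneg_left ih hc'0.le
        _ ≤ V (c * (c ^ k * max x0 1)) := h _ hxk
        _ = V (c ^ (k + 1) * max x0 1) := by
          have : c * (c ^ k * max x0 1) = c ^ (k + 1) * max x0 1 := by ring
          rw [this]
  obtain ⟨k0, hk0⟩ := growth (c' / c) (by rw [lt_div_iff₀ hc0]; linarith) 0 (max x0 1)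
  have h1 := hk0 k0 le_rfl
  have h2 : c' ^ k0 ≤ c ^ k0 * max x0 1 :=
    (hind k0).trans (V_le (mul_nonneg (pow_pos hc0 _).le (by linarith)))
  rw [div_pow, lt_div_iff₀ (pow_pos hc0 _)] at h1
  nlinarith

theorem lower_aux (c : ℝ) (hc : 1 < c) (d : ℝ) (hd1 : 1 ≤ d) (hd : d < c) (x0 : ℝ) :
    ∃ x : ℝ, x0 ≤ x ∧ d * V x < V (c * x) := by
  by_contra hcon
  have h : ∀ x, x0 ≤ x → (V (c * x) : ℝ) ≤ d * V x := fun x hx => by
    by_contra h1
    exact hcon ⟨x, hx, not_le.1 h1⟩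
  have hx1 : 1 ≤ max x0 1 := le_max_right _ _
  have hc0 : 0 < c := by linarith
  have hd0 : 0 < d := by linarith
  have hind : ∀ k : ℕ, (V (c ^ k * max x0 1) : ℝ) ≤ d ^ k * max x0 1 := by
    intro k
    induction k with
    | zero =>
      simp only [pow_zero, one_mul]
      exact V_le (by linarith)
    | succ k ih =>
      have hxk : x0 ≤ c ^ k * max x0 1 := by
        have h1 : 1 ≤ c ^ k := one_le_pow₀ hc.le
        calc x0 ≤ max x0 1 := le_max_left _ _
          _ = 1 * max x0 1 := (one_mul _).symm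
          _ ≤ c ^ k * max x0 1 := mul_le_mul_of_nonneg_right h1 (by linarith)
      have e : c ^ (k + 1) * max x0 1 = c * (c ^ k * max x0 1) := by ring
      rw [e]
      calc (V (c * (c ^ k * max x0 1)) : ℝ) ≤ d * V (c ^ k * max x0 1) := h _ hxk
        _ ≤ d * (d ^ k * max x0 1) := mul_le_mul_of_nonneg_left ih hd0.le
        _ = d ^ (k + 1) * max x0 1 := by ring
  obtain ⟨N0, hN0⟩ := cheb
  obtain ⟨k0, hk0⟩ := growth (c / d) (by rw [lt_div_iff₀ hd0]; linarith)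
    (2 * Real.log c) (2 * Real.log (max x0 1) + 1)
  obtain ⟨k1, hk1⟩ := growth c hc 0 ((N0 : ℝ) + 2)
  set k := max k0 k1 with hk
  have hA := hk0 k (le_max_left _ _)
  have hB := hk1 k (le_max_right _ _)
  set y := c ^ k * max x0 1 with hy
  have hck : 0 < c ^ k := pow_pos hc0 _
  have hy1 : c ^ k ≤ y := by
    rw [hy]
    nlinarith
  have hy0 : 0 < y := lt_of_lt_of_le hck hy1
  have hfl1 : ((⌊y⌋₊ : ℕ) : ℝ) ≤ y := Nat.floor_le hy0.le
  have hfl2 : y < (⌊y⌋₊ : ℕ) + 1 := Nat.lt_floor_add_one y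
  have hnN : N0 ≤ ⌊y⌋₊ := by
    have : (N0 : ℝ) < (⌊y⌋₊ : ℕ) := by linarith
    exact_mod_cast this.le
  have hn1 : (1 : ℝ) ≤ (⌊y⌋₊ : ℕ) := by
    have : (0 : ℝ) ≤ N0 := Nat.cast_nonneg _
    linarith
  have hch := hN0 _ hnN
  have hpi : ((Nat.primeCounting ⌊y⌋₊ : ℕ) : ℝ) ≤ d ^ k * max x0 1 := by
    have h1 : Nat.primeCounting ⌊y⌋₊ ≤ V ((⌊y⌋₊ : ℕ) : ℝ) := pi_le_V _
    have h2 : V ((⌊y⌋₊ : ℕ) : ℝ) ≤ V y := V_mono hfl1
    have h3 : ((Nat.primeCounting ⌊y⌋₊ : ℕ) : ℝ) ≤ V y := by exact_mod_cast h1.trans h2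
    exact h3.trans (hind k)
  have hlog : Real.log ((⌊y⌋₊ : ℕ) : ℝ) ≤ k * Real.log c + Real.log (max x0 1) := by
    have h1 : Real.log ((⌊y⌋₊ : ℕ) : ℝ) ≤ Real.log y := Real.log_le_log (by linarith) hfl1
    have h2 : Real.log y = k * Real.log c + Real.log (max x0 1) := by
      rw [hy, Real.log_mul hck.ne' (by linarith), Real.log_pow]
    linarith
  have hlog0 : 0 ≤ Real.log ((⌊y⌋₊ : ℕ) : ℝ) := Real.log_nonneg hn1
  have hdk : 0 < d ^ k := pow_pos hd0 _
  have hdk1 : 1 ≤ d ^ k * max x0 1 := by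
    have : 1 ≤ d ^ k := one_le_pow₀ hd1
    nlinarith
  have hmain : ((⌊y⌋₊ : ℕ) : ℝ) / 2 ≤
      d ^ k * max x0 1 * (k * Real.log c + Real.log (max x0 1)) :=
    hch.trans (mul_le_mul hpi hlog hlog0 (by linarith))
  have hfin : c ^ k * max x0 1 ≤
      d ^ k * max x0 1 * (2 * Real.log c * k + (2 * Real.log (max x0 1) + 1)) := by
    have : y ≤ 2 * (d ^ k * max x0 1 * (k * Real.log c + Real.log (max x0 1))) + 1 := by
      linarith
    calc c ^ k * max x0 1 = y := rfl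
      _ ≤ 2 * (d ^ k * max x0 1 * (k * Real.log c + Real.log (max x0 1))) + 1 := this
      _ ≤ 2 * (d ^ k * max x0 1 * (k * Real.log c + Real.log (max x0 1))) +
          d ^ k * max x0 1 := by linarith
      _ = _ := by ring
  rw [div_pow, lt_div_iff₀ hdk] at hA
  have hx1' : 0 < max x0 1 := by linarith
  have : c ^ k * max x0 1 <
      c ^ k * max x0 1 := by
    calc c ^ k * max x0 1 ≤
        d ^ k * max x0 1 * (2 * Real.log c * k + (2 * Real.log (max x0 1) + 1)) := hfin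
      _ = ((2 * Real.log c * k + (2 * Real.log (max x0 1) + 1)) * d ^ k) * max x0 1 := by ring
      _ < c ^ k * max x0 1 := mul_lt_mul_of_pos_right hA hx1'
  exact lt_irrefl _ this

theorem lower (c : ℝ) (hc : 1 < c) (c'' : ℝ) (hc'' : c'' < c) (x0 : ℝ) :
    ∃ x : ℝ, x0 ≤ x ∧ c'' * V x < V (c * x) := by
  obtain ⟨x, hx, h⟩ := lower_aux c hc (max c'' 1) (le_max_right _ _) (max_lt hc'' hc) x0
  refine ⟨x, hx, lt_of_le_of_lt ?_ h⟩
  exact mul_le_mul_of_nonneg_right (le_max_left _ _) (Nat.cast_nonneg _)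

theorem limit_eq (c : ℝ) (hc : 1 < c) (L : ℝ)
    (h : Tendsto (fun x : ℝ => (V (c * x) : ℝ) / V x) atTop (𝓝 L)) : L = c := by
  by_contra hne
  rcases lt_or_gt_of_ne hne with hlt | hgt
  · have hev : ∀ᶠ x in atTop, (V (c * x) : ℝ) / V x < (L + c) / 2 :=
      h.eventually (Iio_mem_nhds (by linarith))
    obtain ⟨x0, hx0⟩ := eventually_atTop.1 (hev.and (eventually_ge_atTop (1 : ℝ)))
    obtain ⟨x, hx, hlow⟩ := lower c hc ((L + c) / 2) (by linarith) x0
    obtain ⟨h1, h2⟩ := hx0 x hx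
    have hV : (0 : ℝ) < V x := by exact_mod_cast V_pos h2
    rw [div_lt_iff₀ hV] at h1
    linarith
  · have hev : ∀ᶠ x in atTop, (L + c) / 2 < (V (c * x) : ℝ) / V x :=
      h.eventually (Ioi_mem_nhds (by linarith))
    obtain ⟨x0, hx0⟩ := eventually_atTop.1 (hev.and (eventually_ge_atTop (1 : ℝ)))
    obtain ⟨x, hx, hup⟩ := upper c hc ((L + c) / 2) (by linarith) x0
    obtain ⟨h1, h2⟩ := hx0 x hx
    have hV : (0 : ℝ) < V x := by exact_mod_cast V_pos h2
    rw [lt_div_iff₀ hV] at h1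
    linarith

end Vale.Agent.P031
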